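import Vale.Agent.Lib.P080.Classify

namespace Vale.Agent.Results.P080.SeparableClassify

open Vale.Agent.Lib.P080

/-- Structure theorem, in every dimension `d`: if `u(x) = f_1(x_1) + ... + f_d(x_d)` is
infinity-harmonic (viscosity sense) on a nonempty open box, then every `f_i` is differentiable on
its interval and the cube of its derivative is an affine function `a_i t + b_i`, where the slopes
satisfy `a_1 + ... + a_d = 0`. So the gradient of `u` is
`(cbrt (a_1 x_1 + b_1), ..., cbrt (a_d x_d + b_d))`. -/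
theorem result : ∀ (d : ℕ) (α β : Fin d → ℝ) (f : Fin d → ℝ → ℝ), (∀ i, α i < β i) →
    IsInfHarmonicOn (fun x : EuclideanSpace ℝ (Fin d) => ∑ i, f i (x i))
      {x : EuclideanSpace ℝ (Fin d) | ∀ i, α i < x i ∧ x i < β i} →
    ∃ a b : Fin d → ℝ, ∑ i, a i = 0 ∧ ∀ i, ∀ t ∈ Set.Ioo (α i) (β i),
      DifferentiableAt ℝ (f i) t ∧ deriv (f i) t ^ 3 = a i * t + b i :=
  fun _ α β f hαβ hu => sep_classify α β hαβ f hu

end Vale.Agent.Results.P080.SeparableClassify
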