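import Vale.Agent.Lib.P080.Holder

namespace Vale.Agent.Results.P080.SeparableHolder

open Vale.Agent.Lib.P080

/-- In every dimension `d`: if `u(x) = f_1(x_1) + ... + f_d(x_d)` is infinity-harmonic (viscosity
sense) on an open box, then `u` is `C^1` on the box and its derivative is Hölder continuous with
exponent `1/3` there: `‖Du(x) - Du(y)‖^3 ≤ C ‖x - y‖`. -/
theorem result : ∀ (d : ℕ) (α β : Fin d → ℝ) (f : Fin d → ℝ → ℝ),
    IsInfHarmonicOn (fun x : EuclideanSpace ℝ (Fin d) => ∑ i, f i (x i))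
      {x : EuclideanSpace ℝ (Fin d) | ∀ i, α i < x i ∧ x i < β i} →
    ContDiffOn ℝ 1 (fun x : EuclideanSpace ℝ (Fin d) => ∑ i, f i (x i))
      {x : EuclideanSpace ℝ (Fin d) | ∀ i, α i < x i ∧ x i < β i} ∧
    ∃ C : ℝ, ∀ x ∈ {x : EuclideanSpace ℝ (Fin d) | ∀ i, α i < x i ∧ x i < β i},
      ∀ y ∈ {x : EuclideanSpace ℝ (Fin d) | ∀ i, α i < x i ∧ x i < β i},
        ‖fderiv ℝ (fun x : EuclideanSpace ℝ (Fin d) => ∑ i, f i (x i)) x -
          fderiv ℝ (fun x : EuclideanSpace ℝ (Fin d) => ∑ i, f i (x i)) y‖ ^ 3 ≤ C * ‖x - y‖ :=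
  fun _ α β f hu => ⟨sep_contDiffOn α β f hu, sep_holder α β f hu⟩

end Vale.Agent.Results.P080.SeparableHolder
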