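import Vale.Agent.Lib.P080.Converse

namespace Vale.Agent.Results.P080.SeparableIff

open Vale.Agent.Lib.P080

/-- Classification, in every dimension `d`, of the additively separable infinity-harmonic
functions on a nonempty open box: `u(x) = f_1(x_1) + ... + f_d(x_d)` is infinity-harmonic
(viscosity sense) on the box if and only if every `f_i` is differentiable on its interval with
`(f_i')^3 = a_i t + b_i` for constants with `a_1 + ... + a_d = 0`. The equivalence holds both when
the test functions are `C^2` on the whole space and when they are only `C^2` near the touching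
point. -/
theorem result : ∀ (d : ℕ) (α β : Fin d → ℝ) (f : Fin d → ℝ → ℝ), (∀ i, α i < β i) →
    (IsInfHarmonicOn (fun x : EuclideanSpace ℝ (Fin d) => ∑ i, f i (x i))
        {x : EuclideanSpace ℝ (Fin d) | ∀ i, α i < x i ∧ x i < β i} ↔
      ∃ a b : Fin d → ℝ, ∑ i, a i = 0 ∧ ∀ i, ∀ t ∈ Set.Ioo (α i) (β i),
        DifferentiableAt ℝ (f i) t ∧ deriv (f i) t ^ 3 = a i * t + b i) ∧
    (IsInfHarmonicLocOn (fun x : EuclideanSpace ℝ (Fin d) => ∑ i, f i (x i))
        {x : EuclideanSpace ℝ (Fin d) | ∀ i, α i < x i ∧ x i < β i} ↔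
      ∃ a b : Fin d → ℝ, ∑ i, a i = 0 ∧ ∀ i, ∀ t ∈ Set.Ioo (α i) (β i),
        DifferentiableAt ℝ (f i) t ∧ deriv (f i) t ^ 3 = a i * t + b i) :=
  fun _ α β f hαβ => sep_iff α β hαβ f

end Vale.Agent.Results.P080.SeparableIff
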