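import Vale.Agent.Lib.P080.Quant

namespace Vale.Agent.Results.P080.SeparableQuant

open Vale.Agent.Lib.P080

/-- Quantitative `C^{1,1/3}` estimate, in every dimension `d`, for additively separable
infinity-harmonic functions `u(x) = f_1(x_1) + ... + f_d(x_d)` on an open box all of whose sides
have length at least `l`: if the oscillation of `u` on the box is at most `M`, then `u` is `C^1`
on the box and `‖Du(x) - Du(y)‖^3 ≤ 4096 d^3 (165888 d + 1) (M^3 / l^4) ‖x - y‖` for all `x, y`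
in the box (up to its boundary), the constant depending only on `d`. -/
theorem result : ∀ (d : ℕ) (α β : Fin d → ℝ) (f : Fin d → ℝ → ℝ) (l M : ℝ),
    0 < l → 0 < M → (∀ i, l ≤ β i - α i) →
    IsInfHarmonicOn (fun x : EuclideanSpace ℝ (Fin d) => ∑ i, f i (x i))
      {x : EuclideanSpace ℝ (Fin d) | ∀ i, α i < x i ∧ x i < β i} →
    (∀ x ∈ {x : EuclideanSpace ℝ (Fin d) | ∀ i, α i < x i ∧ x i < β i},
      ∀ y ∈ {x : EuclideanSpace ℝ (Fin d) | ∀ i, α i < x i ∧ x i < β i},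
        |(∑ i, f i (x i)) - (∑ i, f i (y i))| ≤ M) →
    ContDiffOn ℝ 1 (fun x : EuclideanSpace ℝ (Fin d) => ∑ i, f i (x i))
      {x : EuclideanSpace ℝ (Fin d) | ∀ i, α i < x i ∧ x i < β i} ∧
    ∀ x ∈ {x : EuclideanSpace ℝ (Fin d) | ∀ i, α i < x i ∧ x i < β i},
      ∀ y ∈ {x : EuclideanSpace ℝ (Fin d) | ∀ i, α i < x i ∧ x i < β i},
        ‖fderiv ℝ (fun x : EuclideanSpace ℝ (Fin d) => ∑ i, f i (x i)) x -
          fderiv ℝ (fun x : EuclideanSpace ℝ (Fin d) => ∑ i, f i (x i)) y‖ ^ 3 ≤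
          4096 * (d : ℝ) ^ 3 * (165888 * d + 1) * (M ^ 3 / l ^ 4) * ‖x - y‖ :=
  fun _ α β f l M hl hM hlen hu hosc =>
    ⟨sep_contDiffOn α β f hu, sep_holder_quant α β f l M hl hM hlen hu hosc⟩

end Vale.Agent.Results.P080.SeparableQuant
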